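import Vale.Agent.P224.R2.H686.PhiF
import Vale.Agent.P224.R2.H686.PhiA2

/-!
`E φ² ≤ c₁ E a` for `Λ² ≤ κ`, `κ = 1/100, ..., 12/100`, all `m ≥ 36` and `E a ≤ 1/50`.
-/

namespace Vale.Agent.P224.R2.H686

open MeasureTheory Module Function Set Vale.Agent.P224.R2.H470
open scoped RealInnerProductSpace Topology ContDiff

section

variable {X : Type*} {E : Type*} [NormedAddCommGroup E] [InnerProductSpace ℝ E]
  [FiniteDimensional ℝ E] [TopologicalSpace X] [MeasurableSpace X] [CompactSpace X] [BorelSpace X]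
  {μ : Measure X} [IsProbabilityMeasure μ] {m : ℕ} {p n : X → E} {J : E →L[ℝ] E} {Λ : ℝ}

/-- `E φ² ≤ 13 / 5 E a` for `Λ² ≤ 1 / 100` -/
theorem Dat.P01 (d : Dat μ m p n J Λ) (hm : 36 ≤ m) (hκ : Λ ^ 2 ≤ 1 / 100)
    (hH : ∫ x, aa J p n x ∂μ ≤ 1 / 50) :
    ∫ x, ph m J p x ^ 2 ∂μ ≤ 13 / 5 * ∫ x, aa J p n x ∂μ :=
  d.P_level (κ := 1 / 100) (A := 69 / 100) (ℓ := 1001 / 10000) (s := 589 / 2000) (θ := 167 / 10000) (lam := 243 / 500) (w := 31 / 2000)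
    (t1 := 693 / 1000) (t2 := 169 / 125) (t3 := 299 / 10) (t4 := 2 / 25) (ρ1 := 1149 / 10000) (e := 7 / 2000) (ρ3 := 29 / 200)
    (ρ4 := 27 / 125) hm hκ (by constructor <;> norm_num)
    (d.E_aq (l := 237 / 100) hκ (by norm_num) (by norm_num) nA01 nA01') hH

/-- `E φ² ≤ 3 E a` for `Λ² ≤ 1 / 50` -/
theorem Dat.P02 (d : Dat μ m p n J Λ) (hm : 36 ≤ m) (hκ : Λ ^ 2 ≤ 1 / 50)
    (hH : ∫ x, aa J p n x ∂μ ≤ 1 / 50) :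
    ∫ x, ph m J p x ^ 2 ∂μ ≤ 3 * ∫ x, aa J p n x ∂μ :=
  d.P_level (κ := 1 / 50) (A := 87 / 100) (ℓ := 283 / 2000) (s := 3601 / 10000) (θ := 41 / 1250) (lam := 429 / 1000) (w := 19 / 625)
    (t1 := 723 / 1000) (t2 := 637 / 500) (t3 := 471 / 50) (t4 := 83 / 500) (ρ1 := 419 / 2500) (e := 0) (ρ3 := 281 / 1250)
    (ρ4 := 307 / 1000) hm hκ (by constructor <;> norm_num)
    (d.E_aq (l := 27 / 20) hκ (by norm_num) (by norm_num) nA02 nA02') hH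

/-- `E φ² ≤ 171 / 50 E a` for `Λ² ≤ 3 / 100` -/
theorem Dat.P03 (d : Dat μ m p n J Λ) (hm : 36 ≤ m) (hκ : Λ ^ 2 ≤ 3 / 100)
    (hH : ∫ x, aa J p n x ∂μ ≤ 1 / 50) :
    ∫ x, ph m J p x ^ 2 ∂μ ≤ 171 / 50 * ∫ x, aa J p n x ∂μ :=
  d.P_level (κ := 3 / 100) (A := 101 / 100) (ℓ := 1733 / 10000) (s := 4137 / 10000) (θ := 127 / 2500) (lam := 381 / 1000) (w := 471 / 10000)
    (t1 := 377 / 500) (t2 := 1221 / 1000) (t3 := 829 / 100) (t4 := 257 / 1000) (ρ1 := 2109 / 10000) (e := 7 / 5000) (ρ3 := 3037 / 10000)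
    (ρ4 := 383 / 1000) hm hκ (by constructor <;> norm_num)
    (d.E_aq (l := 24 / 25) hκ (by norm_num) (by norm_num) nA03 nA03') hH

/-- `E φ² ≤ 97 / 25 E a` for `Λ² ≤ 1 / 25` -/
theorem Dat.P04 (d : Dat μ m p n J Λ) (hm : 36 ≤ m) (hκ : Λ ^ 2 ≤ 1 / 25)
    (hH : ∫ x, aa J p n x ∂μ ≤ 1 / 50) :
    ∫ x, ph m J p x ^ 2 ∂μ ≤ 97 / 25 * ∫ x, aa J p n x ∂μ :=
  d.P_level (κ := 1 / 25) (A := 113 / 100) (ℓ := 2001 / 10000) (s := 921 / 2000) (θ := 139 / 2000) (lam := 17 / 50) (w := 129 / 2000)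
    (t1 := 787 / 1000) (t2 := 291 / 250) (t3 := 291 / 50) (t4 := 187 / 500) (ρ1 := 1257 / 5000) (e := 0) (ρ3 := 3903 / 10000)
    (ρ4 := 4497 / 10000) hm hκ (by constructor <;> norm_num)
    (d.E_aq (l := 37 / 50) hκ (by norm_num) (by norm_num) nA04 nA04') hH

/-- `E φ² ≤ 221 / 50 E a` for `Λ² ≤ 1 / 20` -/
theorem Dat.P05 (d : Dat μ m p n J Λ) (hm : 36 ≤ m) (hκ : Λ ^ 2 ≤ 1 / 20)
    (hH : ∫ x, aa J p n x ∂μ ≤ 1 / 50) :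
    ∫ x, ph m J p x ^ 2 ∂μ ≤ 221 / 50 * ∫ x, aa J p n x ∂μ :=
  d.P_level (κ := 1 / 20) (A := 31 / 25) (ℓ := 2237 / 10000) (s := 2513 / 5000) (θ := 223 / 2500) (lam := 307 / 1000) (w := 207 / 2500)
    (t1 := 829 / 1000) (t2 := 277 / 250) (t3 := 383 / 100) (t4 := 263 / 500) (ρ1 := 1451 / 5000) (e := 11 / 10000) (ρ3 := 4939 / 10000)
    (ρ4 := 2569 / 5000) hm hκ (by constructor <;> norm_num)
    (d.E_aq (l := 61 / 100) hκ (by norm_num) (by norm_num) nA05 nA05') hH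

/-- `E φ² ≤ 141 / 25 E a` for `Λ² ≤ 67 / 1000` -/
theorem Dat.P067 (d : Dat μ m p n J Λ) (hm : 36 ≤ m) (hκ : Λ ^ 2 ≤ 67 / 1000)
    (hH : ∫ x, aa J p n x ∂μ ≤ 1 / 50) :
    ∫ x, ph m J p x ^ 2 ∂μ ≤ 141 / 25 * ∫ x, aa J p n x ∂μ :=
  d.P_level (κ := 67 / 1000) (A := 141 / 100) (ℓ := 2589 / 10000) (s := 1417 / 2500) (θ := 1257 / 10000) (lam := 259 / 1000) (w := 1167 / 10000)
    (t1 := 909 / 1000) (t2 := 122 / 125) (t3 := 53 / 20) (t4 := 883 / 1000) (ρ1 := 727 / 2000) (e := 3 / 5000) (ρ3 := 3611 / 5000)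
    (ρ4 := 382 / 625) hm hκ (by constructor <;> norm_num)
    (d.E_aq (l := 23 / 50) hκ (by norm_num) (by norm_num) nA067 nA067') hH

/-- `E φ² ≤ 747 / 100 E a` for `Λ² ≤ 17 / 200` -/
theorem Dat.P085 (d : Dat μ m p n J Λ) (hm : 36 ≤ m) (hκ : Λ ^ 2 ≤ 17 / 200)
    (hH : ∫ x, aa J p n x ∂μ ≤ 1 / 50) :
    ∫ x, ph m J p x ^ 2 ∂μ ≤ 747 / 100 * ∫ x, aa J p n x ∂μ :=
  d.P_level (κ := 17 / 200) (A := 79 / 50) (ℓ := 729 / 2500) (s := 251 / 400) (θ := 723 / 5000) (lam := 57 / 200) (w := 671 / 5000)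
    (t1 := 1021 / 1000) (t2 := 1021 / 1000) (t3 := 273 / 100) (t4 := 1) (ρ1 := 793 / 2000) (e := 3553 / 10000) (ρ3 := 9587 / 10000)
    (ρ4 := 7539 / 10000) hm hκ (by constructor <;> norm_num)
    (d.E_aq (l := 9 / 25) hκ (by norm_num) (by norm_num) nA085 nA085') hH

/-- `E φ² ≤ 803 / 100 E a` for `Λ² ≤ 9 / 100` -/
theorem Dat.P09 (d : Dat μ m p n J Λ) (hm : 36 ≤ m) (hκ : Λ ^ 2 ≤ 9 / 100)
    (hH : ∫ x, aa J p n x ∂μ ≤ 1 / 50) :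
    ∫ x, ph m J p x ^ 2 ∂μ ≤ 803 / 100 * ∫ x, aa J p n x ∂μ :=
  d.P_level (κ := 9 / 100) (A := 163 / 100) (ℓ := 3001 / 10000) (s := 6433 / 10000) (θ := 739 / 5000) (lam := 149 / 500) (w := 343 / 2500)
    (t1 := 1051 / 1000) (t2 := 1051 / 1000) (t3 := 283 / 100) (t4 := 1) (ρ1 := 4009 / 10000) (e := 977 / 2000) (ρ3 := 10189 / 10000)
    (ρ4 := 399 / 500) hm hκ (by constructor <;> norm_num)
    (d.E_aq (l := 17 / 50) hκ (by norm_num) (by norm_num) nA09 nA09') hH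

/-- `E φ² ≤ 979 / 100 E a` for `Λ² ≤ 21 / 200` -/
theorem Dat.P105 (d : Dat μ m p n J Λ) (hm : 36 ≤ m) (hκ : Λ ^ 2 ≤ 21 / 200)
    (hH : ∫ x, aa J p n x ∂μ ≤ 1 / 50) :
    ∫ x, ph m J p x ^ 2 ∂μ ≤ 979 / 100 * ∫ x, aa J p n x ∂μ :=
  d.P_level (κ := 21 / 200) (A := 44 / 25) (ℓ := 3241 / 10000) (s := 1377 / 2000) (θ := 787 / 5000) (lam := 42 / 125) (w := 1461 / 10000)
    (t1 := 57 / 50) (t2 := 57 / 50) (t3 := 313 / 100) (t4 := 1) (ρ1 := 33 / 80) (e := 9 / 10) (ρ3 := 753 / 625)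
    (ρ4 := 467 / 500) hm hκ (by constructor <;> norm_num)
    (d.E_aq (l := 29 / 100) hκ (by norm_num) (by norm_num) nA105 nA105') hH

/-- `E φ² ≤ 1041 / 100 E a` for `Λ² ≤ 11 / 100` -/
theorem Dat.P11 (d : Dat μ m p n J Λ) (hm : 36 ≤ m) (hκ : Λ ^ 2 ≤ 11 / 100)
    (hH : ∫ x, aa J p n x ∂μ ≤ 1 / 50) :
    ∫ x, ph m J p x ^ 2 ∂μ ≤ 1041 / 100 * ∫ x, aa J p n x ∂μ :=
  d.P_level (κ := 11 / 100) (A := 9 / 5) (ℓ := 3317 / 10000) (s := 7029 / 10000) (θ := 321 / 2000) (lam := 87 / 250) (w := 149 / 1000)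
    (t1 := 117 / 100) (t2 := 117 / 100) (t3 := 161 / 50) (t4 := 1) (ρ1 := 4159 / 10000) (e := 10407 / 10000) (ρ3 := 1269 / 1000)
    (ρ4 := 9811 / 10000) hm hκ (by constructor <;> norm_num)
    (d.E_aq (l := 7 / 25) hκ (by norm_num) (by norm_num) nA11 nA11') hH

/-- `E φ² ≤ 1173 / 100 E a` for `Λ² ≤ 3 / 25` -/
theorem Dat.P12 (d : Dat μ m p n J Λ) (hm : 36 ≤ m) (hκ : Λ ^ 2 ≤ 3 / 25)
    (hH : ∫ x, aa J p n x ∂μ ≤ 1 / 50) :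
    ∫ x, ph m J p x ^ 2 ∂μ ≤ 1173 / 100 * ∫ x, aa J p n x ∂μ :=
  d.P_level (κ := 3 / 25) (A := 189 / 100) (ℓ := 693 / 2000) (s := 731 / 1000) (θ := 833 / 5000) (lam := 93 / 250) (w := 773 / 5000)
    (t1 := 1227 / 1000) (t2 := 1227 / 1000) (t3 := 171 / 50) (t4 := 1) (ρ1 := 4231 / 10000) (e := 13307 / 10000) (ρ3 := 13983 / 10000)
    (ρ4 := 10753 / 10000) hm hκ (by constructor <;> norm_num)
    (d.E_aq (l := 1 / 4) hκ (by norm_num) (by norm_num) nA12 nA12') hH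

end

end Vale.Agent.P224.R2.H686
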